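import Vale.Agent.P167Z.Defs
import Vale.Agent.P167Z.Apx
import Vale.Agent.P167.N.Top.Lit

universe u

/-- **The question of Rohde and Schramm for all `0 < q < 4`, in all bounded Jordan domains**: the
interfaces of the critical random-cluster model on the square lattice with Dobrushin boundary
conditions converge in law, in the metric `d`, to chordal `SLE_κ(q)`, in every bounded domain whose
boundary is a simple closed curve, for all marked points and all lattice approximations; such
approximations exist. -/
theorem Vale.Agent.Results.P167.AAJordanInterface.result :
    (∀ q : ℝ, 0 < q → q < 4 → Vale.Agent.P167Z.Question.{u} q) ∧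
      ∀ D : Set ℂ, Vale.Agent.P167Z.IsJordanDomain D → ∀ a ∈ frontier D, ∀ b ∈ frontier D, a ≠ b →
        Vale.Agent.P167Z.HasApproximations D a b :=
  ⟨fun q h0 h4 => Vale.Agent.P167Z.question_of (Vale.Agent.P167.N.Top.question_lit q h0 h4),
    fun _ hD _ ha _ hb hab => Vale.Agent.P167Z.hasApproximations hD ha hb hab⟩
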